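import Mathlib

/-!
# X212 / Weil93, part Cov (helper93): towers of covers, integer solutions of integer equations

* `exists_tower` : a finite open cover `V i ⊆ D i` of a compact space with good sets
  `D i ⊆ C j`, `C i ⊆ B j` whenever `V i` meets `V j`;
* `exists_int_span` : real solutions of integer linear equations are real combinations of finitely
  many integer solutions.
-/

set_option autoImplicit false
set_option linter.style.haveILetI false

open Set Filter Topology Function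
open scoped Uniformity

namespace Crest.Agent.X212.Weil93

section Tower

variable {X : Type*}

theorem exists_step [UniformSpace X] [CompactSpace X] {G : Set X → Prop}
    (hG : ∀ x, ∀ O ∈ 𝓝 x, ∃ U ∈ 𝓝 x, G U ∧ U ⊆ O) {W : Set (X × X)} (hW : W ∈ 𝓤 X) :
    ∃ W' ∈ 𝓤 X, ∃ N : X → Set X, ∀ x, G (N x) ∧ UniformSpace.ball x W' ⊆ N x ∧
      ∀ y, (y, x) ∈ W' → N x ⊆ UniformSpace.ball y W := by
  obtain ⟨T, hT, hTW⟩ := comp_mem_uniformity_sets hW
  obtain ⟨S, hS, hs, hST⟩ := comp_symm_of_uniformity hT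
  choose U h1 h2 h3 using fun y => hG y _ (UniformSpace.ball_mem_nhds y hS)
  obtain ⟨L, hL, hl⟩ := lebesgue_number_lemma_nhds (K := univ) isCompact_univ fun x _ => h1 x
  choose c hc using fun x => hl x (mem_univ x)
  refine ⟨L ∩ T, inter_mem hL hT, fun x => U (c x), fun x => ⟨h2 _, fun z hz => hc x hz.1, ?_⟩⟩
  intro y hy z hz
  have a1 : (c x, x) ∈ S := h3 _ (hc x (refl_mem_uniformity hL))
  have a2 : (c x, z) ∈ S := h3 _ hz
  exact hTW ⟨x, hy.2, hST ⟨c x, hs a1, a2⟩⟩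

/-- a finite cover with three levels of good sets -/
theorem exists_tower [TopologicalSpace X] [CompactSpace X] [T2Space X] {G : Set X → Prop}
    (hG : ∀ x, ∀ O ∈ 𝓝 x, ∃ U ∈ 𝓝 x, G U ∧ U ⊆ O) :
    ∃ (n : ℕ) (V D C B : Fin n → Set X), (∀ i, IsOpen (V i)) ∧ (∀ x, ∃ i, x ∈ V i) ∧
      (∀ i, G (D i) ∧ G (C i) ∧ G (B i)) ∧ (∀ i, V i ⊆ D i) ∧
      ∀ i j, (V i ∩ V j).Nonempty → D i ⊆ C j ∧ C i ⊆ B j := by
  letI : UniformSpace X := uniformSpaceOfCompactR1
  obtain ⟨W1, h1, B, hB⟩ := exists_step hG (W := univ) univ_mem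
  obtain ⟨W2, h2, C, hC⟩ := exists_step hG h1
  obtain ⟨W3, h3, D, hD⟩ := exists_step hG h2
  obtain ⟨S, hS, hs, hSW⟩ := comp_symm_of_uniformity (inter_mem h2 h3)
  obtain ⟨t, ht⟩ := isCompact_univ.elim_finite_subcover
    (fun x => interior (UniformSpace.ball x S)) (fun _ => isOpen_interior) fun x _ =>
      mem_iUnion.2 ⟨x, mem_interior_iff_mem_nhds.2 (UniformSpace.ball_mem_nhds x hS)⟩
  let e : Fin t.card → X := fun i => t.equivFin.symm i
  have ib : ∀ {x z}, z ∈ interior (UniformSpace.ball x S) → (x, z) ∈ S := fun h =>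
    interior_subset (s := UniformSpace.ball _ S) h
  refine ⟨t.card, fun i => interior (UniformSpace.ball (e i) S), fun i => D (e i), fun i => C (e i),
    fun i => B (e i), fun _ => isOpen_interior, fun x => ?_,
    fun i => ⟨(hD _).1, (hC _).1, (hB _).1⟩, fun i z hz => (hD _).2.1 ?_, fun i j ⟨z, hi, hj⟩ => ?_⟩
  · obtain ⟨y, hy, h⟩ := mem_iUnion₂.1 (ht (mem_univ x))
    exact ⟨t.equivFin ⟨y, hy⟩, by simpa [e] using h⟩
  · exact (hSW ⟨z, ib hz, refl_mem_uniformity hS⟩).2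
  · have k : (e j, e i) ∈ W2 ∩ W3 := hSW ⟨z, ib hj, hs (ib hi)⟩
    exact ⟨((hD _).2.2 _ k.2).trans (hC _).2.1, ((hC _).2.2 _ k.1).trans (hB _).2.1⟩

end Tower

section Span

variable {σ : Type*} [Fintype σ] {P : (σ → ℝ) → Prop}

theorem mem_span_int (hP : ∀ c, P c → ∀ φ : ℝ →+ ℝ, P fun s => φ (c s)) {c : σ → ℝ} (hc : P c) :
    c ∈ Submodule.span ℝ {z : σ → ℝ | P z ∧ ∀ s, ∃ k : ℤ, z s = k} := by
  classical
  let b := Module.Basis.ofVectorSpace ℚ ℝ
  let T := Finset.univ.biUnion fun s => (b.repr (c s)).support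
  have e : c = ∑ t ∈ T, b t • fun s => ((b.repr (c s) t : ℚ) : ℝ) := by
    funext s
    rw [Finset.sum_apply]
    conv_lhs => rw [← b.linearCombination_repr (c s), Finsupp.linearCombination_apply,
      Finsupp.sum_of_support_subset (s := T) _
        (Finset.subset_biUnion_of_mem (fun s => (b.repr (c s)).support) (Finset.mem_univ s))
        (fun i a => a • b i) (fun _ _ => zero_smul _ _)]
    exact Finset.sum_congr rfl fun t _ => by rw [Rat.smul_def, mul_comm]; rfl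
  rw [e]
  refine Submodule.sum_mem _ fun t _ => Submodule.smul_mem _ _ ?_
  set N : ℕ := ∏ s, (b.repr (c s) t).den with hN
  have hN0 : (N : ℝ) ≠ 0 := by
    exact_mod_cast Finset.prod_ne_zero_iff.2 fun s _ => (b.repr (c s) t).den_ne_zero
  let φ : ℝ →+ ℝ := (AddMonoidHom.mulLeft (N : ℝ)).comp
    ((Rat.castHom ℝ).toAddMonoidHom.comp (b.coord t).toAddMonoidHom)
  have hφ : ∀ r, φ r = N * ((b.repr r t : ℚ) : ℝ) := fun _ => rfl
  have e2 : (fun s => ((b.repr (c s) t : ℚ) : ℝ)) = (N : ℝ)⁻¹ • fun s => φ (c s) := by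
    funext s
    rw [Pi.smul_apply, hφ, smul_eq_mul, inv_mul_cancel_left₀ hN0]
  rw [e2]
  refine Submodule.smul_mem _ _ (Submodule.subset_span ⟨hP c hc φ, fun s => ?_⟩)
  obtain ⟨r, hr⟩ : (b.repr (c s) t).den ∣ N := Finset.dvd_prod_of_mem _ (Finset.mem_univ s)
  refine ⟨r * (b.repr (c s) t).num, ?_⟩
  have k : ((b.repr (c s) t).den : ℝ) * ((b.repr (c s) t : ℚ) : ℝ) = (b.repr (c s) t).num := by
    exact_mod_cast Rat.den_mul_eq_num (b.repr (c s) t)
  show φ (c s) = _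
  rw [hφ, hr]
  push_cast
  rw [← k]
  ring

/-- finitely many integer solutions span all real solutions -/
theorem exists_int_span (hP : ∀ c, P c → ∀ φ : ℝ →+ ℝ, P fun s => φ (c s)) :
    ∃ (m : ℕ) (z : Fin m → σ → ℝ), (∀ q, P (z q) ∧ ∀ s, ∃ k : ℤ, z q s = k) ∧
      ∀ c, P c → ∃ t : Fin m → ℝ, c = ∑ q, t q • z q := by
  obtain ⟨T, hT, e⟩ := (Submodule.fg_span_iff_fg_span_finset_subset (R := ℝ)
    {z : σ → ℝ | P z ∧ ∀ s, ∃ k : ℤ, z s = k}).1 (IsNoetherian.noetherian _)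
  refine ⟨T.card, fun q => T.equivFin.symm q, fun q => hT (T.equivFin.symm q).2, fun c hc => ?_⟩
  have h := mem_span_int hP hc
  rw [e, ← Subtype.range_coe (s := (T : Set (σ → ℝ))), Submodule.mem_span_range_iff_exists_fun] at h
  obtain ⟨t, ht⟩ := h
  exact ⟨fun q => t (T.equivFin.symm q), by
    rw [← ht]; exact (Equiv.sum_comp T.equivFin.symm fun i => t i • (i : σ → ℝ)).symm⟩

end Span

end Crest.Agent.X212.Weil93
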